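import Vale.Agent.P017.R3.Defs

/-!
# P017, row B10: the mean corank of the smooth part is bounded for most `d`
-/

open Finset

namespace Vale.Agent.P017.R3.H445

open Vale.Agent.P017.R3
open Vale.Agent.P017.R2.H985 (PF Pat cork StmtId)

/-- the mean of `2^ck` -/
noncomputable def gm (m : ℕ) : ℝ :=
  avg (fun u : PF m → ZMod 2 => (2 : ℝ) ^ ck (AA m + Matrix.diagonal u))

theorem gm_nonneg (m : ℕ) : 0 ≤ gm m := by
  unfold gm avg
  positivity

theorem gm_eq (hI : StmtId) (hD : StmtDict) (m : ℕ) (h1 : Squarefree m) (h2 : Odd m) :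
    gm m = (∑ b ∈ m.divisors, ∑ c ∈ (m / b).divisors, (jacobiSym b c : ℝ)) /
      2 ^ m.primeFactors.card := by
  have h3 := hD.2.1 m (fun k => (2 : ℝ) ^ k)
  have h4 := hI m h1 h2
  have h5 : ∑ w : Pat m, (2 : ℝ) ^ cork m w =
      ∑ b ∈ m.divisors, ∑ c ∈ (m / b).divisors, (jacobiSym b c : ℝ) := by
    have h6 := congrArg (fun x : ℤ => (x : ℝ)) h4
    push_cast at h6
    exact h6
  unfold gm avg
  have h7 : Fintype.card (PF m) = m.primeFactors.card := Fintype.card_coe _
  rw [← h5, h7]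
  congr 1
  exact h3.symm

theorem smp_mul (z : ℝ) {d : ℕ} (hd : Squarefree d) :
    smp z d * ∏ p ∈ d.primeFactors.filter (fun p : ℕ => ¬ (p : ℝ) ≤ z), p = d := by
  unfold smp
  rw [Finset.prod_filter_mul_prod_filter_not]
  exact Nat.prod_primeFactors_of_squarefree hd

theorem rough_primeFactors (z : ℝ) (d : ℕ) :
    ∀ q ∈ (∏ p ∈ d.primeFactors.filter (fun p : ℕ => ¬ (p : ℝ) ≤ z), p).primeFactors,
      z < (q : ℝ) := by
  intro q hq
  rw [Nat.primeFactors_prod] at hq
  · exact not_le.1 (Finset.mem_filter.1 hq).2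
  · intro p hp
    exact Nat.prime_of_mem_primeFactors (Finset.mem_filter.1 hp).1

/-- (B10) -/
theorem stmtCk (hF : StmtFirst2) (hI : StmtId) (hS : StmtSieve) (hD : StmtDict) : StmtCk := by
  intro δ U hδ
  obtain ⟨C₁, hC₁, hF⟩ := hF
  obtain ⟨C₂, hC₂, hS⟩ := hS
  set B : ℝ := C₂ * C₁ * (U + 1) / δ with hB
  have hB0 : 0 < B := by positivity
  refine ⟨B, fun z hz X hX => ?_⟩
  have hz0 : 0 < z := by linarith
  have hz1 : 1 ≤ z := by linarith
  have hlz : 0 < Real.log z := Real.log_pos (by linarith)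
  set Y : ℕ := ⌊z ^ (U + 1)⌋₊ with hY
  have hzU : z ≤ z ^ (U + 1) := by
    calc z = z ^ 1 := (pow_one z).symm
      _ ≤ z ^ (U + 1) := pow_le_pow_right₀ hz1 (by omega)
  have hY2 : 2 ≤ Y := Nat.le_floor (by push_cast; linarith)
  have hYle : (Y : ℝ) ≤ z ^ (U + 1) := Nat.floor_le (by positivity)
  have hlogY : Real.log Y ≤ (U + 1) * Real.log z := by
    have h1 : Real.log Y ≤ Real.log (z ^ (U + 1)) :=
      Real.log_le_log (by positivity) hYle
    rw [Real.log_pow] at h1
    push_cast at h1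
    exact h1
  set M : Finset ℕ := (Icc 1 Y).filter (fun m => Squarefree m ∧ Odd m) with hM
  set M' : Finset ℕ := M.filter (fun m => (m : ℝ) ≤ z ^ U ∧ B < gm m) with hM'
  -- the rough numbers
  have hcov : ((Icc 1 X).filter (fun d => Squarefree d ∧ Odd d ∧ (smp z d : ℝ) ≤ z ^ U ∧
      B < gm (smp z d))) ⊆ M'.biUnion (fun m =>
      ((Icc 1 (X / m)).filter (fun n => ∀ p : ℕ, p ∈ n.primeFactors → z < p)).image
        (fun n => m * n)) := by
    intro d hd
    rw [Finset.mem_filter, Finset.mem_Icc] at hd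
    obtain ⟨⟨hd1, hdX⟩, hsq, hodd, hsm, hBg⟩ := hd
    have hmul := smp_mul z hsq
    set n : ℕ := ∏ p ∈ d.primeFactors.filter (fun p : ℕ => ¬ (p : ℝ) ≤ z), p with hn
    have hdvd : smp z d ∣ d := ⟨n, hmul.symm⟩
    have hm0 : 0 < smp z d := Nat.pos_of_dvd_of_pos hdvd (by omega)
    have hn0 : 0 < n := by
      rcases Nat.eq_zero_or_pos n with h | h
      · rw [h] at hmul
        omega
      · exact h
    rw [Finset.mem_biUnion]
    refine ⟨smp z d, ?_, ?_⟩
    · rw [hM', Finset.mem_filter, hM, Finset.mem_filter, Finset.mem_Icc]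
      refine ⟨⟨⟨hm0, ?_⟩, hsq.squarefree_of_dvd hdvd, hodd.of_dvd_nat hdvd⟩, hsm, hBg⟩
      refine Nat.le_floor (hsm.trans ?_)
      exact pow_le_pow_right₀ hz1 (by omega)
    · rw [Finset.mem_image]
      refine ⟨n, ?_, hmul⟩
      rw [Finset.mem_filter, Finset.mem_Icc]
      refine ⟨⟨hn0, ?_⟩, rough_primeFactors z d⟩
      rw [Nat.le_div_iff_mul_le hm0]
      calc n * smp z d = d := by rw [mul_comm]; exact hmul
        _ ≤ X := hdX
  have hcard : ((((Icc 1 X).filter (fun d => Squarefree d ∧ Odd d ∧ (smp z d : ℝ) ≤ z ^ U ∧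
      B < gm (smp z d))).card : ℕ) : ℝ) ≤ ∑ m ∈ M', C₂ * X / (m * Real.log z) := by
    have h1 := (Finset.card_le_card hcov).trans Finset.card_biUnion_le
    have h2 : ((((Icc 1 X).filter (fun d => Squarefree d ∧ Odd d ∧ (smp z d : ℝ) ≤ z ^ U ∧
      B < gm (smp z d))).card : ℕ) : ℝ) ≤ ∑ m ∈ M',
      ((((Icc 1 (X / m)).filter (fun n => ∀ p : ℕ, p ∈ n.primeFactors → z < p)).image
        (fun n => m * n)).card : ℝ) := by exact_mod_cast h1
    refine h2.trans (Finset.sum_le_sum fun m hm => ?_)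
    rw [hM', Finset.mem_filter, hM, Finset.mem_filter, Finset.mem_Icc] at hm
    obtain ⟨⟨⟨hm1, -⟩, -, -⟩, hmU, -⟩ := hm
    have hm0 : (0 : ℝ) < m := by exact_mod_cast hm1
    have h3 : z ≤ ((X / m : ℕ) : ℝ) := by
      have h4 : z + 1 ≤ (X : ℝ) / m := by
        rw [le_div_iff₀ hm0]
        have h5 : z + 1 ≤ z ^ (U + 2) := by
          calc z + 1 ≤ z ^ 2 := by nlinarith
            _ ≤ z ^ (U + 2) := pow_le_pow_right₀ hz1 (by omega)
        calc (z + 1) * m ≤ z ^ (U + 2) * z ^ U := by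
              apply mul_le_mul h5 hmU hm0.le (by positivity)
          _ = z ^ (2 * U + 2) := by rw [← pow_add]; congr 1; omega
          _ ≤ X := hX
      have h6 : (X : ℝ) / m < ((X / m : ℕ) : ℝ) + 1 := by
        rw [div_lt_iff₀ hm0]
        have := Nat.lt_mul_div_succ X hm1
        have h7 : (X : ℝ) < m * ((X / m : ℕ) + 1) := by exact_mod_cast this
        linarith
      linarith
    have h4 := hS z hz (X / m) h3
    have h5 : ((((Icc 1 (X / m)).filter (fun n => ∀ p : ℕ, p ∈ n.primeFactors → z < p)).image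
        (fun n => m * n)).card : ℝ) ≤
        (((Icc 1 (X / m)).filter (fun n => ∀ p : ℕ, p ∈ n.primeFactors → z < p)).card : ℝ) := by
      exact_mod_cast Finset.card_image_le
    refine h5.trans (le_trans ?_ (h4.trans ?_))
    · exact le_of_eq (congrArg (fun k : ℕ => (k : ℝ)) (congrArg Finset.card
        (Finset.filter_congr fun n _ => Iff.rfl)))
    · have h6 : ((X / m : ℕ) : ℝ) ≤ (X : ℝ) / m := Nat.cast_div_le
      calc C₂ * ((X / m : ℕ) : ℝ) / Real.log z ≤ C₂ * ((X : ℝ) / m) / Real.log z := by gcongr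
        _ = C₂ * X / (m * Real.log z) := by
          field_simp
  have hfirst : ∑ m ∈ M, gm m / m ≤ C₁ * Real.log Y := by
    refine le_trans (le_of_eq ?_) (hF Y hY2)
    refine Finset.sum_congr rfl fun m hm => ?_
    rw [Finset.mem_filter] at hm
    rw [gm_eq hI hD m hm.2.1 hm.2.2, div_div]
  have hlast : ∑ m ∈ M', C₂ * X / (m * Real.log z) ≤ δ * X := by
    have h1 : ∀ m ∈ M', C₂ * X / (m * Real.log z) ≤ C₂ * X / (B * Real.log z) * (gm m / m) := by
      intro m hm
      rw [hM', Finset.mem_filter, hM, Finset.mem_filter, Finset.mem_Icc] at hm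
      obtain ⟨⟨⟨hm1, -⟩, -, -⟩, -, hg⟩ := hm
      have hm0 : (0 : ℝ) < m := by exact_mod_cast hm1
      have h2 : C₂ * X / (B * Real.log z) * (gm m / m) =
          C₂ * X / (m * Real.log z) * (gm m / B) := by
        field_simp
      rw [h2]
      have h3 : 1 ≤ gm m / B := by
        rw [le_div_iff₀ hB0]
        linarith
      have h4 : 0 ≤ C₂ * X / (m * Real.log z) := by positivity
      nlinarith
    refine (Finset.sum_le_sum h1).trans ?_
    rw [← Finset.mul_sum]
    have h2 : ∑ m ∈ M', gm m / m ≤ ∑ m ∈ M, gm m / m :=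
      Finset.sum_le_sum_of_subset_of_nonneg (Finset.filter_subset _ _)
        fun m _ _ => div_nonneg (gm_nonneg m) (Nat.cast_nonneg m)
    have h3 : ∑ m ∈ M', gm m / m ≤ C₁ * ((U + 1) * Real.log z) :=
      h2.trans (hfirst.trans (mul_le_mul_of_nonneg_left hlogY hC₁.le))
    calc C₂ * X / (B * Real.log z) * ∑ m ∈ M', gm m / m
        ≤ C₂ * X / (B * Real.log z) * (C₁ * ((U + 1) * Real.log z)) :=
          mul_le_mul_of_nonneg_left h3 (by positivity)
      _ = δ * X := by
        rw [hB]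
        field_simp
  refine le_trans (le_of_eq ?_) (hcard.trans hlast)
  exact congrArg (fun k : ℕ => (k : ℝ)) (congrArg Finset.card
    (Finset.filter_congr fun d _ => Iff.rfl))

end Vale.Agent.P017.R3.H445
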