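import Mathlib

/-!
# P017, row B7: the Turan-Kubilius inequality (abstract part)
-/

open Finset

namespace Vale.Agent.P017.R3.H445

theorem card_dvd (X m : ℕ) : ((Icc 1 X).filter (fun d => m ∣ d)).card = X / m := by
  rw [← Nat.Ioc_filter_dvd_card_eq_div X m]
  congr 1

theorem card_dvd_le (X m : ℕ) :
    (((Icc 1 X).filter (fun d => m ∣ d)).card : ℝ) ≤ X * (1 / (m : ℝ)) := by
  rw [card_dvd, mul_one_div]
  exact Nat.cast_div_le

theorem le_card_dvd (X m : ℕ) :
    (X : ℝ) * (1 / (m : ℝ)) - 1 ≤ (((Icc 1 X).filter (fun d => m ∣ d)).card : ℝ) := by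
  rw [card_dvd, mul_one_div]
  rcases Nat.eq_zero_or_pos m with rfl | hm
  · simp
  · have h1 : X < m * (X / m + 1) := by
      have := Nat.lt_mul_div_succ X hm
      simpa using this
    have h2 : (X : ℝ) < m * ((X / m : ℕ) + 1) := by exact_mod_cast h1
    have hm' : (0 : ℝ) < m := by exact_mod_cast hm
    have h3 : (X : ℝ) / m < (X / m : ℕ) + 1 := by
      rw [div_lt_iff₀ hm']
      linarith
    linarith

/-- the number of prime factors in `P` -/
noncomputable def om (P : Finset ℕ) (d : ℕ) : ℝ := ((P.filter (fun p => p ∣ d)).card : ℝ)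

theorem om_eq (P : Finset ℕ) (d : ℕ) : om P d = ∑ p ∈ P, (if p ∣ d then (1 : ℝ) else 0) := by
  unfold om
  rw [Finset.card_filter]
  push_cast
  rfl

theorem sum_om (X : ℕ) (P : Finset ℕ) :
    ∑ d ∈ Icc 1 X, om P d = ∑ p ∈ P, (((Icc 1 X).filter (fun d => p ∣ d)).card : ℝ) := by
  simp_rw [om_eq]
  rw [Finset.sum_comm]
  refine Finset.sum_congr rfl fun p _ => ?_
  rw [Finset.card_filter]
  push_cast
  rfl

theorem sum_om_sq (X : ℕ) (P : Finset ℕ) :
    ∑ d ∈ Icc 1 X, om P d ^ 2 =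
      ∑ p ∈ P, ∑ q ∈ P, (((Icc 1 X).filter (fun d => p ∣ d ∧ q ∣ d)).card : ℝ) := by
  simp_rw [om_eq, sq, Finset.sum_mul_sum]
  rw [Finset.sum_comm]
  refine Finset.sum_congr rfl fun p _ => ?_
  rw [Finset.sum_comm]
  refine Finset.sum_congr rfl fun q _ => ?_
  rw [Finset.card_filter]
  push_cast
  refine Finset.sum_congr rfl fun d _ => ?_
  by_cases h1 : p ∣ d <;> by_cases h2 : q ∣ d <;> simp [h1, h2]

theorem card_two (X : ℕ) {p q : ℕ} (hp : p.Prime) (hq : q.Prime) :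
    (((Icc 1 X).filter (fun d => p ∣ d ∧ q ∣ d)).card : ℝ) ≤
      X * ((1 / (p : ℝ)) * (1 / (q : ℝ))) + if p = q then X * (1 / (p : ℝ)) else 0 := by
  by_cases h : p = q
  · subst h
    simp only [and_self, if_true]
    have := card_dvd_le X p
    have h2 : (0 : ℝ) ≤ X * ((1 / (p : ℝ)) * (1 / (p : ℝ))) := by positivity
    linarith
  · rw [if_neg h, add_zero]
    have hc : Nat.Coprime p q := (Nat.coprime_primes hp hq).2 h
    have h1 : (Icc 1 X).filter (fun d => p ∣ d ∧ q ∣ d) =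
        (Icc 1 X).filter (fun d => p * q ∣ d) := by
      refine Finset.filter_congr fun d _ => ?_
      constructor
      · rintro ⟨ha, hb⟩
        exact hc.mul_dvd_of_dvd_of_dvd ha hb
      · intro hd
        exact ⟨(Dvd.intro _ rfl).trans hd, (Dvd.intro_left _ rfl).trans hd⟩
    rw [h1]
    refine (card_dvd_le X (p * q)).trans (le_of_eq ?_)
    push_cast
    rw [one_div_mul_one_div]

/-- Turan-Kubilius -/
theorem tk (X : ℕ) (P : Finset ℕ) (hP : ∀ p ∈ P, p.Prime) (E : ℝ)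
    (hE : E = ∑ p ∈ P, (1 / (p : ℝ))) :
    ∑ d ∈ Icc 1 X, (om P d - E) ^ 2 ≤ X * E + 2 * E * P.card := by
  have hE0 : 0 ≤ E := by
    rw [hE]
    exact Finset.sum_nonneg fun p _ => by positivity
  have h1 : (X : ℝ) * E - P.card ≤ ∑ d ∈ Icc 1 X, om P d := by
    rw [sum_om, hE, Finset.mul_sum]
    have h : ∑ p ∈ P, ((X : ℝ) * (1 / (p : ℝ)) - 1) ≤
        ∑ p ∈ P, (((Icc 1 X).filter (fun d => p ∣ d)).card : ℝ) :=
      Finset.sum_le_sum fun p _ => le_card_dvd X p
    rw [Finset.sum_sub_distrib] at h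
    simpa using h
  have h2 : ∑ d ∈ Icc 1 X, om P d ^ 2 ≤ X * (E * E) + X * E := by
    rw [sum_om_sq]
    have h : ∑ p ∈ P, ∑ q ∈ P, (((Icc 1 X).filter (fun d => p ∣ d ∧ q ∣ d)).card : ℝ) ≤
        ∑ p ∈ P, ∑ q ∈ P, (X * ((1 / (p : ℝ)) * (1 / (q : ℝ))) +
          if p = q then X * (1 / (p : ℝ)) else 0) :=
      Finset.sum_le_sum fun p hp => Finset.sum_le_sum fun q hq => card_two X (hP p hp) (hP q hq)
    refine h.trans (le_of_eq ?_)
    have h3 : ∀ p ∈ P, ∑ q ∈ P, (X * ((1 / (p : ℝ)) * (1 / (q : ℝ))) +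
        if p = q then X * (1 / (p : ℝ)) else 0) = X * ((1 / (p : ℝ)) * E) + X * (1 / (p : ℝ)) := by
      intro p hp
      rw [Finset.sum_add_distrib, Finset.sum_ite_eq, if_pos hp, hE, Finset.mul_sum,
        Finset.mul_sum]
    rw [Finset.sum_congr rfl h3, Finset.sum_add_distrib, ← Finset.mul_sum, ← Finset.mul_sum,
      ← Finset.sum_mul, ← hE]
  have h3 : ∑ d ∈ Icc 1 X, (om P d - E) ^ 2 =
      ∑ d ∈ Icc 1 X, om P d ^ 2 - 2 * E * ∑ d ∈ Icc 1 X, om P d + X * (E * E) := by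
    have h4 : ∀ d ∈ Icc 1 X, (om P d - E) ^ 2 = om P d ^ 2 - 2 * E * om P d + E * E :=
      fun d _ => by ring
    rw [Finset.sum_congr rfl h4, Finset.sum_add_distrib, Finset.sum_sub_distrib,
      ← Finset.mul_sum]
    simp
  rw [h3]
  have h5 := mul_le_mul_of_nonneg_left h1 (by positivity : (0 : ℝ) ≤ 2 * E)
  nlinarith

/-- few integers with few prime factors in `P` -/
theorem few (X : ℕ) (P : Finset ℕ) (hP : ∀ p ∈ P, p.Prime) (hX : P.card ≤ X) (k : ℕ) (E : ℝ)
    (hE : E = ∑ p ∈ P, (1 / (p : ℝ))) (hk : 2 * (k : ℝ) ≤ E) (δ : ℝ) (hδ : 0 < δ)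
    (hEd : 12 / δ ≤ E) :
    (((Icc 1 X).filter (fun d => (P.filter (fun p => p ∣ d)).card < k)).card : ℝ) ≤ δ * X := by
  have hE0 : 0 < E := lt_of_lt_of_le (by positivity) hEd
  have h1 := tk X P hP E hE
  have h2 : ∑ d ∈ (Icc 1 X).filter (fun d => (P.filter (fun p => p ∣ d)).card < k),
      (om P d - E) ^ 2 ≤ ∑ d ∈ Icc 1 X, (om P d - E) ^ 2 :=
    Finset.sum_le_sum_of_subset_of_nonneg (Finset.filter_subset _ _) fun _ _ _ => sq_nonneg _
  have h3 : ∑ d ∈ (Icc 1 X).filter (fun d => (P.filter (fun p => p ∣ d)).card < k),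
      (E / 2) ^ 2 ≤ ∑ d ∈ (Icc 1 X).filter (fun d => (P.filter (fun p => p ∣ d)).card < k),
      (om P d - E) ^ 2 := by
    refine Finset.sum_le_sum fun d hd => ?_
    have hd' := (Finset.mem_filter.1 hd).2
    have h4 : om P d ≤ k := by
      unfold om
      exact_mod_cast hd'.le
    nlinarith
  rw [Finset.sum_const, nsmul_eq_mul] at h3
  have h5 : (P.card : ℝ) ≤ X := by exact_mod_cast hX
  have h6 : (((Icc 1 X).filter (fun d => (P.filter (fun p => p ∣ d)).card < k)).card : ℝ) *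
      (E / 2) ^ 2 ≤ 3 * X * E := by
    have h7 : 2 * E * P.card ≤ 2 * E * X := mul_le_mul_of_nonneg_left h5 (by positivity)
    linarith
  have h8 : (((Icc 1 X).filter (fun d => (P.filter (fun p => p ∣ d)).card < k)).card : ℝ) * E ≤
      12 * X := by
    have h9 : (((Icc 1 X).filter (fun d => (P.filter (fun p => p ∣ d)).card < k)).card : ℝ) * E *
        E ≤ 12 * X * E := by nlinarith
    exact le_of_mul_le_mul_right h9 hE0
  have h10 : 12 ≤ δ * E := by
    rw [div_le_iff₀ hδ] at hEd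
    linarith
  have h11 : (((Icc 1 X).filter (fun d => (P.filter (fun p => p ∣ d)).card < k)).card : ℝ) * 12 ≤
      δ * (12 * X) := by
    have h12 : (0 : ℝ) ≤ (((Icc 1 X).filter
      (fun d => (P.filter (fun p => p ∣ d)).card < k)).card : ℝ) := by positivity
    nlinarith
  linarith

end Vale.Agent.P017.R3.H445
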