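import Vale.Agent.P017.R3.Defs
import Vale.Agent.P017.R3.H445.TK0

/-!
# P017, row B7: most integers have many prime factors `3 mod 4` in `(X^a, X^b]`
-/

open Finset

namespace Vale.Agent.P017.R3.H445

open Vale.Agent.P017.R3

theorem mem_Bx {j : ℕ} {p : ℕ} (h : p ∈ Bx 2 j 3) :
    (2 : ℝ) ^ j < p ∧ (p : ℝ) ≤ 2 ^ (j + 1) ∧ p.Prime ∧ p % 4 = 3 := by
  unfold Bx at h
  rw [Finset.mem_filter, Finset.mem_Ioc] at h
  obtain ⟨⟨h1, h2⟩, h3, h4⟩ := h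
  refine ⟨?_, ?_, h3, h4⟩
  · exact (Nat.floor_lt (by positivity)).1 h1
  · exact (Nat.le_floor_iff (by positivity)).1 h2

/-- one box -/
theorem box (j : ℕ) (h : |Th 2 j 3 1 - (2 - 1) / 2 * 2 ^ j| ≤ 1 / 4 * 2 ^ j) :
    1 / 8 * (1 / ((j : ℝ) + 1)) ≤ ∑ p ∈ Bx 2 j 3, (1 / (p : ℝ)) := by
  have h1 : 1 / 4 * 2 ^ j ≤ Th 2 j 3 1 := by
    have := (abs_le.1 h).1
    linarith
  have h2 : Th 2 j 3 1 ≤ ((j : ℝ) + 1) * 2 ^ (j + 1) * ∑ p ∈ Bx 2 j 3, (1 / (p : ℝ)) := by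
    unfold Th
    rw [Finset.mul_sum]
    refine Finset.sum_le_sum fun p hp => ?_
    obtain ⟨ha, hb, hc, -⟩ := mem_Bx hp
    have hp0 : (0 : ℝ) < p := by exact_mod_cast hc.pos
    have h3 : Real.log p ≤ (j : ℝ) + 1 := by
      have h4 : Real.log p ≤ Real.log (2 ^ (j + 1)) := Real.log_le_log hp0 hb
      rw [Real.log_pow] at h4
      have h5 : Real.log 2 ≤ 1 := by
        have := Real.log_two_lt_d9
        linarith
      push_cast at h4
      nlinarith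
    have h6 : (jacobiSym p ((1 : ℕ) : ℕ) : ℝ) = 1 := by
      rw [jacobiSym.one_right]
      simp
    rw [h6, mul_one]
    have h7 : (1 : ℝ) ≤ 2 ^ (j + 1) * (1 / (p : ℝ)) := by
      rw [mul_one_div, le_div_iff₀ hp0]
      linarith
    calc Real.log p ≤ ((j : ℝ) + 1) * 1 := by linarith
      _ ≤ ((j : ℝ) + 1) * (2 ^ (j + 1) * (1 / (p : ℝ))) :=
        mul_le_mul_of_nonneg_left h7 (by positivity)
      _ = ((j : ℝ) + 1) * 2 ^ (j + 1) * (1 / (p : ℝ)) := by ring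
  have h8 : 1 / 4 * (2 : ℝ) ^ j ≤ ((j : ℝ) + 1) * 2 ^ (j + 1) * ∑ p ∈ Bx 2 j 3, (1 / (p : ℝ)) :=
    h1.trans h2
  have h9 : (0 : ℝ) < 2 ^ j := by positivity
  have h10 : 1 / 8 ≤ ((j : ℝ) + 1) * ∑ p ∈ Bx 2 j 3, (1 / (p : ℝ)) := by
    rw [pow_succ] at h8
    have h11 : (1 / 8) * (2 : ℝ) ^ j ≤
        (((j : ℝ) + 1) * ∑ p ∈ Bx 2 j 3, (1 / (p : ℝ))) * 2 ^ j := by nlinarith
    exact le_of_mul_le_mul_right h11 h9
  have hj : (0 : ℝ) < (j : ℝ) + 1 := by positivity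
  rw [mul_one_div, div_le_iff₀ hj]
  linarith

theorem sum_log (a b : ℕ) (h : a ≤ b) :
    Real.log ((b : ℝ) + 1) - Real.log ((a : ℝ) + 1) ≤ ∑ j ∈ Ico a b, (1 / ((j : ℝ) + 1)) := by
  induction b, h using Nat.le_induction with
  | base => simp
  | succ b hb ih =>
    rw [Finset.sum_Ico_succ_top hb]
    have h1 : Real.log ((b : ℝ) + 1 + 1) - Real.log ((b : ℝ) + 1) ≤ 1 / ((b : ℝ) + 1) := by
      have hb0 : (0 : ℝ) < (b : ℝ) + 1 := by positivity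
      rw [← Real.log_div (by positivity) (by positivity)]
      have h2 := Real.log_le_sub_one_of_pos
        (show (0 : ℝ) < ((b : ℝ) + 1 + 1) / ((b : ℝ) + 1) by positivity)
      refine h2.trans (le_of_eq ?_)
      field_simp
      ring
    push_cast
    linarith

/-- the boxes between `a` and `b` -/
theorem boxes (j₀ : ℕ) (hj : ∀ j : ℕ, j₀ ≤ j → |Th 2 j 3 1 - (2 - 1) / 2 * 2 ^ j| ≤ 1 / 4 * 2 ^ j)
    (a b : ℕ) (h0 : j₀ ≤ a) (h : a ≤ b) (P : Finset ℕ)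
    (hP : ∀ p : ℕ, p.Prime → p % 4 = 3 → (2 : ℝ) ^ a < p → (p : ℝ) ≤ 2 ^ b → p ∈ P) :
    1 / 8 * (Real.log ((b : ℝ) + 1) - Real.log ((a : ℝ) + 1)) ≤ ∑ p ∈ P, (1 / (p : ℝ)) := by
  have hd : Set.PairwiseDisjoint (↑(Ico a b) : Set ℕ) (fun j => Bx 2 j 3) := by
    intro i _ j _ hij
    rw [Function.onFun, Finset.disjoint_left]
    intro p hp hq
    obtain ⟨h1, h2, -, -⟩ := mem_Bx hp
    obtain ⟨h3, h4, -, -⟩ := mem_Bx hq
    have h5 : (2 : ℝ) ^ i < 2 ^ (j + 1) := h1.trans_le h4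
    have h6 : (2 : ℝ) ^ j < 2 ^ (i + 1) := h3.trans_le h2
    have h7 := (pow_lt_pow_iff_right₀ (by norm_num : (1 : ℝ) < 2)).1 h5
    have h8 := (pow_lt_pow_iff_right₀ (by norm_num : (1 : ℝ) < 2)).1 h6
    omega
  have h1 : (Ico a b).biUnion (fun j => Bx 2 j 3) ⊆ P := by
    intro p hp
    rw [Finset.mem_biUnion] at hp
    obtain ⟨j, hj1, hp⟩ := hp
    obtain ⟨h1, h2, h3, h4⟩ := mem_Bx hp
    rw [Finset.mem_Ico] at hj1
    refine hP p h3 h4 ?_ ?_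
    · exact lt_of_le_of_lt (pow_le_pow_right₀ (by norm_num) hj1.1) h1
    · exact h2.trans (pow_le_pow_right₀ (by norm_num) (by omega))
  have h2 : ∑ p ∈ (Ico a b).biUnion (fun j => Bx 2 j 3), (1 / (p : ℝ)) ≤ ∑ p ∈ P, (1 / (p : ℝ)) :=
    Finset.sum_le_sum_of_subset_of_nonneg h1 fun _ _ _ => by positivity
  rw [Finset.sum_biUnion hd] at h2
  refine le_trans ?_ h2
  have h3 : ∑ j ∈ Ico a b, 1 / 8 * (1 / ((j : ℝ) + 1)) ≤
      ∑ j ∈ Ico a b, ∑ p ∈ Bx 2 j 3, (1 / (p : ℝ)) :=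
    Finset.sum_le_sum fun j hj1 => box j (hj j (h0.trans (Finset.mem_Ico.1 hj1).1))
  rw [← Finset.mul_sum] at h3
  have h4 := sum_log a b h
  linarith

theorem two_rpow_logb {X : ℝ} (hX : 0 < X) (c : ℝ) : (2 : ℝ) ^ (c * Real.logb 2 X) = X ^ c := by
  rw [mul_comm, Real.rpow_mul (by norm_num), Real.rpow_logb (by norm_num) (by norm_num) hX]

/-- (B7) -/
theorem stmtTK (hPNT : StmtPNT) : StmtTK := by
  intro k δ b hδ hb hb4
  obtain ⟨j₀, hj₀⟩ := hPNT 2 (by norm_num) (le_refl _) (1 / 4) (by norm_num)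
  have hj : ∀ j : ℕ, j₀ ≤ j → |Th 2 j 3 1 - (2 - 1) / 2 * 2 ^ j| ≤ 1 / 4 * 2 ^ j :=
    fun j h => hj₀ j h 3 (Or.inr rfl)
  set E₀ : ℝ := 2 * k + 12 / δ with hE₀
  have hE₀pos : 0 < E₀ := by positivity
  set a : ℝ := b / 2 * Real.exp (-(8 * E₀)) with ha
  have ha0 : 0 < a := by positivity
  have hab : a ≤ b / 2 := by
    have h1 : Real.exp (-(8 * E₀)) ≤ 1 := Real.exp_le_one_iff.2 (by linarith)
    rw [ha]
    nlinarith
  refine ⟨a, ha0, by linarith, ?_⟩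
  -- L := logb 2 X large
  have hlim : Filter.Tendsto (fun X : ℕ => Real.logb 2 (X : ℝ)) Filter.atTop Filter.atTop :=
    (Real.tendsto_logb_atTop (by norm_num)).comp tendsto_natCast_atTop_atTop
  have hev := hlim.eventually_ge_atTop (((j₀ : ℝ) + 2) / a)
  obtain ⟨X₀, hX₀⟩ := Filter.eventually_atTop.1 hev
  refine ⟨max X₀ 1, fun X hX => ?_⟩
  have hX1 : 1 ≤ X := le_trans (le_max_right _ _) hX
  have hL := hX₀ X (le_trans (le_max_left _ _) hX)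
  set L : ℝ := Real.logb 2 (X : ℝ) with hLdef
  have hX1' : (1 : ℝ) ≤ X := by exact_mod_cast hX1
  have hX0' : (0 : ℝ) < X := by linarith
  have haL : (j₀ : ℝ) + 2 ≤ a * L := by
    rw [div_le_iff₀ ha0] at hL
    linarith
  have hL0 : 0 < L := by
    by_contra hc
    push Not at hc
    have : a * L ≤ 0 := by nlinarith
    have : (0 : ℝ) ≤ j₀ := by positivity
    linarith
  set J1 : ℕ := ⌈a * L⌉₊ with hJ1
  set J2 : ℕ := ⌊b * L⌋₊ with hJ2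
  have hJ1a : a * L ≤ J1 := Nat.le_ceil _
  have hJ1b : (J1 : ℝ) < a * L + 1 := Nat.ceil_lt_add_one (by positivity)
  have hJ2a : (J2 : ℝ) ≤ b * L := Nat.floor_le (by positivity)
  have hJ2b : b * L < (J2 : ℝ) + 1 := Nat.lt_floor_add_one _
  have hj01 : j₀ ≤ J1 := by
    have : (j₀ : ℝ) ≤ J1 := by linarith
    exact_mod_cast this
  have hJ12 : J1 ≤ J2 := by
    have h1 : a * L + a * L ≤ b * L := by nlinarith
    have h0 : (0 : ℝ) ≤ j₀ := by positivity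
    have h2 : (J1 : ℝ) < J2 + 1 := by linarith
    have h3 : J1 < J2 + 1 := by exact_mod_cast h2
    omega
  set P : Finset ℕ := (Icc 1 X).filter (fun p : ℕ => p.Prime ∧ p % 4 = 3 ∧
    (X : ℝ) ^ a < p ∧ (p : ℝ) ≤ (X : ℝ) ^ b) with hPdef
  have hXa : (X : ℝ) ^ a ≤ 2 ^ J1 := by
    rw [← two_rpow_logb hX0' a, ← Real.rpow_natCast]
    exact Real.rpow_le_rpow_of_exponent_le (by norm_num) hJ1a
  have hXb : (2 : ℝ) ^ J2 ≤ (X : ℝ) ^ b := by
    rw [← two_rpow_logb hX0' b, ← Real.rpow_natCast]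
    exact Real.rpow_le_rpow_of_exponent_le (by norm_num) hJ2a
  have hXX : (X : ℝ) ^ b ≤ X := by
    calc (X : ℝ) ^ b ≤ (X : ℝ) ^ (1 : ℝ) :=
          Real.rpow_le_rpow_of_exponent_le hX1' (by linarith)
      _ = X := Real.rpow_one _
  have hPm : ∀ p : ℕ, p.Prime → p % 4 = 3 → (2 : ℝ) ^ J1 < p → (p : ℝ) ≤ 2 ^ J2 → p ∈ P := by
    intro p h1 h2 h3 h4
    rw [hPdef, Finset.mem_filter, Finset.mem_Icc]
    have h5 : (p : ℝ) ≤ X := by linarith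
    exact ⟨⟨h1.one_le, by exact_mod_cast h5⟩, h1, h2, by linarith, by linarith⟩
  have hPp : ∀ p ∈ P, p.Prime := fun p hp => (Finset.mem_filter.1 hp).2.1
  have hPc : P.card ≤ X := by
    have := Finset.card_filter_le (Icc 1 X) (fun p : ℕ => p.Prime ∧ p % 4 = 3 ∧
      (X : ℝ) ^ a < p ∧ (p : ℝ) ≤ (X : ℝ) ^ b)
    simpa using this
  have hE1 := boxes j₀ hj J1 J2 hj01 hJ12 P hPm
  have hE2 : E₀ ≤ ∑ p ∈ P, (1 / (p : ℝ)) := by
    refine le_trans ?_ hE1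
    have h1 : ((J1 : ℝ) + 1) * Real.exp (8 * E₀) ≤ (J2 : ℝ) + 1 := by
      have h2 : (J1 : ℝ) + 1 ≤ 2 * (a * L) := by
        have h0 : (0 : ℝ) ≤ j₀ := by positivity
        linarith
      have h3 : ((J1 : ℝ) + 1) * Real.exp (8 * E₀) ≤ 2 * (a * L) * Real.exp (8 * E₀) :=
        mul_le_mul_of_nonneg_right h2 (Real.exp_pos _).le
      have h4 : 2 * (a * L) * Real.exp (8 * E₀) = b * L := by
        rw [ha, Real.exp_neg]
        field_simp
      linarith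
    have h5 : Real.log (((J1 : ℝ) + 1) * Real.exp (8 * E₀)) ≤ Real.log ((J2 : ℝ) + 1) :=
      Real.log_le_log (by positivity) h1
    rw [Real.log_mul (by positivity) (by positivity), Real.log_exp] at h5
    linarith
  have hfew := few X P hPp hPc k (∑ p ∈ P, (1 / (p : ℝ))) rfl
    (by have : (0 : ℝ) < 12 / δ := by positivity
        linarith) δ hδ
    (by have : (0 : ℝ) ≤ 2 * k := by positivity
        linarith)
  refine le_trans (le_of_eq ?_) hfew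
  norm_cast
  refine congrArg Finset.card (Finset.filter_congr fun d hd => ?_)
  rw [Finset.mem_Icc] at hd
  have hset : d.primeFactors.filter (fun p : ℕ => p % 4 = 3 ∧ (X : ℝ) ^ a < p ∧
      (p : ℝ) ≤ (X : ℝ) ^ b) = P.filter (fun p => p ∣ d) := by
    ext p
    simp only [Finset.mem_filter, Nat.mem_primeFactors, hPdef, Finset.mem_Icc]
    constructor
    · rintro ⟨⟨h1, h2, -⟩, h3, h4, h5⟩
      exact ⟨⟨⟨h1.one_le, (Nat.le_of_dvd (by omega) h2).trans hd.2⟩, h1, h3, h4, h5⟩, h2⟩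
    · rintro ⟨⟨-, h1, h3, h4, h5⟩, h2⟩
      exact ⟨⟨h1, h2, by omega⟩, h3, h4, h5⟩
  rw [← hset]

end Vale.Agent.P017.R3.H445
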